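import Vale.Agent.P240.R2.H775.RT3
import Vale.Agent.P240.R2.H997.NoOut

/-!
Groups of type `2D`: the orders of the opposite root subgroups of the simple reflections;
automorphisms of order `p` prime to the characteristic are inner, if there are no automorphisms of
the diagram and of the field of `p`-power order.
-/

set_option autoImplicit false
set_option linter.all false

namespace Vale.Agent.P240.R2.H432.NT

open Subgroup Matrix Vale.Agent.P240.H195 Vale.Agent.P240.R2.H487.CG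
open Vale.Agent.P240.K (cj mem_cj)
open Vale.Agent.P240.R2.H38.DD
open Vale.Agent.P240.R2.H775.RG (Pt LoU pt_of_dc pt_of_up lin_fix diag_comm lou_mul)
open Vale.Agent.P240.R2.H775.RD (tx_iso lo_mid gm_lou xr_lou xr_mul tau_form BH UH mem_BH' mem_UH'
  anti' pi_inj)
open Vale.Agent.P240.R2.H775.RT Vale.Agent.P240.R2.H997

section
variable {n : ℕ} {F : Type*} [Field F] [Finite F] {σ : F ≃+* F}
  {H : Subgroup (SLm (2 * n + 1) F)}

section
variable {L : Type*} [Group L] {π : ↥H →* L}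

/-- the long roots -/
lemma card_long (hg : GoodT n σ H)
    (hker : ∀ x : ↥H, π x = 1 → Mon x.1 1) (hB : ∀ x, π x ∈ (BH H).map π ↔ x ∈ BH H) {s : ↥H}
    {i : Fin n} (hi : i.val + 1 < n) (hs : Mon s.1 (tau i))
    (hPar : ∀ {y}, y ∈ Par ((BH H).map π) (π s) → y ∈ (BH H).map π ∨ DC ((BH H).map π) (π s) y)
    {w : ↥H} {τ : Equiv.Perm (VI n)} (hτ : Mon w.1 τ)
    (hanti : ∀ {a b : VI n}, a < b → a ≠ Fin.rev b → τ b < τ a)
    (hanti' : ∀ {a b : VI n}, a < b → ¬ (a = c0 n ∧ b = c1 n) → τ b < τ a) :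
    ∃ K : Subfield F, Nat.card (cj (π w) ((UH H).map π) ⊓ Par ((BH H).map π) (π s) :
      Subgroup L) = Nat.card K := by
  let K : Subfield F := (σ : F →+* F).eqLocusField (RingHom.id F)
  have hK : ∀ x : K, σ x.1 = x.1 := fun x => x.2
  obtain ⟨a, ha⟩ : ∃ a, a = ia i := ⟨_, rfl⟩
  obtain ⟨b, hb⟩ : ∃ b, b = ib i := ⟨_, rfl⟩
  have hav : a.val = i.val := by rw [ha]; rfl
  have hbv : b.val = i.val + 1 := by rw [hb]; rfl
  have hma : ¬ Mid a := fun h => by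
    rcases mid_val h with h | h <;> omega
  have hmb : ¬ Mid b := fun h => by
    rcases mid_val h with h | h <;> omega
  have hab : a < b := by rw [ha, hb]; exact ia_lt i
  have hab' : a ≠ Fin.rev b := by rw [ha, hb]; exact ia_ne' i
  have hba' : b ≠ Fin.rev a := fun h5 => hab' (by rw [h5, Fin.rev_rev])
  have hxm : ∀ c : K, xr b a c.1 ∈ H := fun c => hg.lr b a hab.ne' hba' hmb hma c.1 (hK c)
  have hX : ∀ y, y ∈ Par ((BH H).map π) (π s) → (π w)⁻¹ * y * π w ∈ (UH H).map π →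
      ∃ c : K, y = π ⟨xr b a c.1, hxm c⟩ := by
    intro y h1 h2
    obtain ⟨A, rfl, hl, hpt⟩ := X_form hg hB hs hPar hτ hanti' h1 h2
    have h3 := tau_form (hg.le A.2) hl hpt
    rw [← ha, ← hb] at h3
    have h4 := hg.fix _ A.2 b a
    rw [pp_fix hma, pp_fix hmb] at h4
    exact ⟨⟨A.1.1 b a, h4.symm⟩, congrArg π (Subtype.ext h3)⟩
  have hX' : ∀ c : K, π ⟨xr b a c.1, hxm c⟩ ∈ Par ((BH H).map π) (π s) ∧
      (π w)⁻¹ * π ⟨xr b a c.1, hxm c⟩ * π w ∈ (UH H).map π := by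
    intro c
    refine X_in ?_ (xr_down hg hτ hanti hab hab' c.1)
    obtain ⟨d, hd⟩ := xr_conj' (hg.le s.2) hs hab.ne' c.1
    rw [tau_iv, ha, hb, tau_a, tau_b] at hd
    change IsUp (s.1⁻¹ * xr b a c.1 * s.1)
    rw [ha, hb, hd]
    exact xr_up (ia_lt i) d
  refine ⟨K, (Nat.card_congr (Equiv.ofBijective (fun c : K =>
    (⟨π ⟨xr b a c.1, hxm c⟩, mem_cj.2 (hX' c).2, (hX' c).1⟩ :
      (cj (π w) ((UH H).map π) ⊓ Par ((BH H).map π) (π s) : Subgroup L))) ⟨?_, ?_⟩)).symm⟩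
  · intro c d hcd
    have hcd' : π ⟨xr b a c.1, hxm c⟩ = π ⟨xr b a d.1, hxm d⟩ := congrArg Subtype.val hcd
    have h1 := pi_inj hker (x := ⟨xr b a c.1, hxm c⟩) (y := ⟨xr b a d.1, hxm d⟩) (xr_lou hab c.1)
      (xr_lou hab d.1) hcd'
    have h2 := congrArg (fun B : ↥H => B.1.1 b a) h1
    have h3 : (xr b a c.1).1 b a = (xr b a d.1).1 b a := h2
    rw [xr_apply hab.ne', xr_apply hab.ne', if_neg hab.ne',
      if_neg (fun h4 : b = Fin.rev a ∧ a = Fin.rev b => hba' h4.1),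
      if_neg (fun h4 : b = Fin.rev a ∧ a = Fin.rev b => hba' h4.1)] at h3
    exact Subtype.ext (by simpa using h3)
  · rintro ⟨y, hyU, hyP⟩
    obtain ⟨c, hc⟩ := hX y hyP (mem_cj.1 hyU)
    exact ⟨c, Subtype.ext hc.symm⟩

/-- the short roots -/
lemma card_short (hg : GoodT n σ H)
    (hσ : ∀ x, σ (σ x) = x)
    (hker : ∀ x : ↥H, π x = 1 → Mon x.1 1) (hB : ∀ x, π x ∈ (BH H).map π ↔ x ∈ BH H) {s : ↥H}
    {i : Fin n} (hi : i.val + 1 = n) (hs : Mon s.1 (tau i * (pp n * tau i * pp n)))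
    (hPar : ∀ {y}, y ∈ Par ((BH H).map π) (π s) → y ∈ (BH H).map π ∨ DC ((BH H).map π) (π s) y)
    {w : ↥H} {τ : Equiv.Perm (VI n)} (hτ : Mon w.1 τ)
    (hanti : ∀ {a b : VI n}, a < b → a ≠ Fin.rev b → τ b < τ a)
    (hanti' : ∀ {a b : VI n}, a < b → ¬ (a = c0 n ∧ b = c1 n) → τ b < τ a) :
    Nat.card (cj (π w) ((UH H).map π) ⊓ Par ((BH H).map π) (π s) : Subgroup L) =
      Nat.card F := by
  have hm := last_nm hi
  obtain ⟨h0, h0'⟩ := mid_ne hm
  have hav : (ia i).val = i.val := rfl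
  have hrv := rv_val (ia i)
  have l0 : ia i < c0 n := by
    rw [Fin.lt_def, hav]
    change i.val < n
    omega
  have l1 : ia i < c1 n := by
    rw [Fin.lt_def, hav]
    change i.val < n + 1
    omega
  have h1' : ia i ≠ Fin.rev (c1 n) := by rw [rev_c1]; exact h0
  have k0 : c0 n ≠ Fin.rev (ia i) := fun h5 => h0' (by rw [h5, Fin.rev_rev])
  have k1 : c1 n ≠ Fin.rev (ia i) := fun h5 => h1' (by rw [h5, Fin.rev_rev])
  have hxm : ∀ c : F, xs σ (ia i) c ∈ H := fun c => xs_mem hg hσ hm c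
  have hx0 : ∀ c : F, (xs σ (ia i) c).1 (c0 n) (ia i) = c := by
    intro c
    unfold xs
    rw [xr_mul h0.symm k0, if_pos rfl, if_neg k0, xr_diag l1.ne', xr_apply l1.ne', if_neg h0.symm,
      if_neg (fun h => c0_ne h.1), if_neg (fun h => k0 h.1)]
    ring
  have hx1 : ∀ c : F, (xs σ (ia i) c).1 (c1 n) (ia i) = σ c := by
    intro c
    unfold xs
    rw [xr_mul h0.symm k0, if_neg c0_ne.symm, if_neg k1, xr_apply l1.ne', if_neg l1.ne',
      if_pos ⟨rfl, rfl⟩, if_neg (fun h => k1 h.1)]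
    ring
  have hxp : ∀ c : F, ∀ u v : VI n, v < u → (xs σ (ia i) c).1 u v ≠ 0 →
      i.val ≤ v.val ∧ u.val ≤ n + 2 := by
    intro c u v huv hne
    unfold xs at hne
    have e1 : (c0 n).val = n := rfl
    have e2 : (c1 n).val = n + 1 := rfl
    rw [xr_mul h0.symm k0, xr_apply l1.ne', xr_apply l1.ne', xr_apply l1.ne', if_neg huv.ne'] at hne
    by_contra hcon
    apply hne
    have t1 : ¬ (u = c1 n ∧ v = ia i) := by
      rintro ⟨rfl, rfl⟩
      omega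
    have t2 : ¬ (u = Fin.rev (ia i) ∧ v = Fin.rev (c1 n)) := by
      rintro ⟨rfl, rfl⟩
      rw [rev_c1] at hcon
      omega
    have t3 : u = c0 n → ia i ≠ v := by
      rintro rfl rfl
      omega
    have t4 : u = c0 n → ¬ (ia i = Fin.rev (ia i) ∧ v = Fin.rev (c1 n)) := by
      rintro rfl ⟨h, -⟩
      exact rv_ne _ h.symm
    have t5 : u = Fin.rev (ia i) → Fin.rev (c0 n) ≠ v := by
      rintro rfl rfl
      rw [rev_c0] at hcon
      omega
    have t6 : u = Fin.rev (ia i) → ¬ (Fin.rev (c0 n) = c1 n ∧ v = ia i) := by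
      rintro rfl ⟨-, rfl⟩
      omega
    have t7 : ¬ (Fin.rev (c0 n) = Fin.rev (ia i) ∧ v = Fin.rev (c1 n)) := by
      rintro ⟨h, -⟩
      exact h0 (Fin.rev_injective h).symm
    rw [if_neg t1, if_neg t2, if_neg t7]
    by_cases hu : u = c0 n
    · rw [if_pos hu, if_neg (t3 hu), if_neg (fun h : ia i = c1 n ∧ _ => l1.ne h.1), if_neg (t4 hu),
        if_neg (fun h : u = Fin.rev (ia i) => k0 (hu ▸ h))]
      ring
    · rw [if_neg hu]
      by_cases hu' : u = Fin.rev (ia i)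
      · rw [if_pos hu', if_neg (t5 hu'), if_neg (t6 hu')]
        ring
      · rw [if_neg hu']
        ring
  have hX : ∀ y, y ∈ Par ((BH H).map π) (π s) → (π w)⁻¹ * y * π w ∈ (UH H).map π →
      ∃ c : F, y = π ⟨xs σ (ia i) c, hxm c⟩ := by
    intro y h1 h2
    obtain ⟨A, rfl, hl, hpt⟩ := X_form hg hB hs hPar hτ hanti' h1 h2
    refine ⟨A.1.1 (c0 n) (ia i), congrArg π (Subtype.ext ?_)⟩
    refine last_eq hi (hg.le A.2) hl (fun u v huv h => last_pt hi hpt huv h)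
      (hg.le (hxm _)) (xs_lou l0 _) (hxp _) (hx0 _).symm ?_
    rw [hx1]
    have h4 := hg.fix _ A.2 (c0 n) (ia i)
    rwa [pp_c0, pp_fix hm] at h4
  have hX' : ∀ c : F, π ⟨xs σ (ia i) c, hxm c⟩ ∈ Par ((BH H).map π) (π s) ∧
      (π w)⁻¹ * π ⟨xs σ (ia i) c, hxm c⟩ * π w ∈ (UH H).map π := by
    intro c
    refine X_in ?_ ?_
    · change IsUp (s.1⁻¹ * (xr (c0 n) (ia i) c * xr (c1 n) (ia i) (σ c)) * s.1)
      have e : s.1⁻¹ * (xr (c0 n) (ia i) c * xr (c1 n) (ia i) (σ c)) * s.1 =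
          (s.1⁻¹ * xr (c0 n) (ia i) c * s.1) * (s.1⁻¹ * xr (c1 n) (ia i) (σ c) * s.1) := by group
      obtain ⟨d, hd⟩ := xr_conj' (hg.le s.2) hs h0.symm c
      obtain ⟨d', hd'⟩ := xr_conj' (hg.le s.2) hs l1.ne' (σ c)
      rw [e, hd, hd']
      have v0 := last_apply hi (c0 n)
      have v1 := last_apply hi (c1 n)
      have v2 := last_apply hi (Fin.rev (ia i))
      have e0 : (c0 n).val = n := rfl
      have e1 : (c1 n).val = n + 1 := rfl
      rw [if_neg (by omega), if_pos (by omega)] at v0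
      rw [if_neg (by omega), if_neg (by omega), if_pos (by omega)] at v1
      rw [if_neg (by omega), if_neg (by omega), if_neg (by omega), if_pos (by omega)] at v2
      generalize tau i * (pp n * tau i * pp n) = ρ at *
      have r0 : ρ⁻¹ (c0 n) = c1 n := by
        rw [Equiv.Perm.inv_eq_iff_eq]
        exact Fin.ext (by rw [v1]; rfl)
      have r1 : ρ⁻¹ (c1 n) = c0 n := by
        rw [Equiv.Perm.inv_eq_iff_eq]
        exact Fin.ext (by rw [v0]; rfl)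
      have r2 : ρ⁻¹ (ia i) = Fin.rev (ia i) := by
        rw [Equiv.Perm.inv_eq_iff_eq]
        exact Fin.ext (by rw [v2, hav]; omega)
      rw [r0, r1, r2]
      exact up_mul (xr_up (by rw [Fin.lt_def]; omega) d) (xr_up (by rw [Fin.lt_def]; omega) d')
    · change w.1⁻¹ * (xr (c0 n) (ia i) c * xr (c1 n) (ia i) (σ c)) * w.1 ∈ _
      have e : w.1⁻¹ * (xr (c0 n) (ia i) c * xr (c1 n) (ia i) (σ c)) * w.1 =
          (w.1⁻¹ * xr (c0 n) (ia i) c * w.1) * (w.1⁻¹ * xr (c1 n) (ia i) (σ c) * w.1) := by group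
      rw [e]
      exact mul_mem (xr_down hg hτ hanti l0 h0' c) (xr_down hg hτ hanti l1 h1' _)
  refine (Nat.card_congr (Equiv.ofBijective (fun c : F =>
    (⟨π ⟨xs σ (ia i) c, hxm c⟩, mem_cj.2 (hX' c).2, (hX' c).1⟩ :
      (cj (π w) ((UH H).map π) ⊓ Par ((BH H).map π) (π s) : Subgroup L))) ⟨?_, ?_⟩)).symm
  · intro c d hcd
    have hcd' : π ⟨xs σ (ia i) c, hxm c⟩ = π ⟨xs σ (ia i) d, hxm d⟩ := congrArg Subtype.val hcd
    have h1 := pi_inj hker (x := ⟨_, hxm c⟩) (y := ⟨_, hxm d⟩) (xs_lou l0 c) (xs_lou l0 d) hcd'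
    have h2 := congrArg (fun B : ↥H => B.1.1 (c0 n) (ia i)) h1
    have h3 : (xs σ (ia i) c).1 (c0 n) (ia i) = (xs σ (ia i) d).1 (c0 n) (ia i) := h2
    rwa [hx0, hx0] at h3
  · rintro ⟨y, hyU, hyP⟩
    obtain ⟨c, hc⟩ := hX y hyP (mem_cj.1 hyU)
    exact ⟨c, Subtype.ext hc.symm⟩

end

/-- automorphisms of order `p` are inner, if those of `p`-power order that stabilize `B` stabilize
the minimal parabolic subgroups -/
theorem dt_inner {r f : ℕ} [hr : Fact r.Prime] [CharP F r] (hg : GoodT n σ H)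
    (hσ : ∀ x, σ (σ x) = x) {N : Subgroup ↥H} {S : Set ↥H} (hS : ∀ s ∈ S, SimT s.1)
    (hN : ∀ n ∈ N, ∃ τ, Mon n.1 τ) (hT : ∀ t : ↥H, Mon t.1 1 → t ∈ N)
    (h : SB r (BH H) N (UH H) S) (hsimple : IsSimpleGroup (↥H ⧸ center ↥H))
    {p : ℕ} (hp : p.Prime) (hpr : p ≠ r) (hF : Nat.card F = r ^ f)
    (hpF : ∀ j, 0 < j → j ≤ f → ¬ p ∣ r ^ j - 1)
    (h1 : ∀ e : MulAut (↥H ⧸ center ↥H), (∃ k, e ^ p ^ k = 1) →
      am e ((BH H).map (QuotientGroup.mk' (center ↥H))) =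
        (BH H).map (QuotientGroup.mk' (center ↥H)) →
      ∀ s ∈ QuotientGroup.mk' (center ↥H) '' S,
        am e (Par ((BH H).map (QuotientGroup.mk' (center ↥H))) s) =
          Par ((BH H).map (QuotientGroup.mk' (center ↥H))) s)
    {g : MulAut (↥H ⧸ center ↥H)} (hgp : g ^ p = 1) :
    g ∈ (MulAut.conj (G := ↥H ⧸ center ↥H)).range := by
  have hr := hr.out
  have h' := Vale.Agent.P240.R2.H487.CG.SB.centre_quot h hr
  have hker : ∀ k, QuotientGroup.mk' (center ↥H) k = 1 → k ∈ BH H ∧ k ∈ N := by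
    intro k hk
    have h1 : k ∈ center ↥H := (QuotientGroup.eq_one_iff k).1 hk
    exact center_le_T h hr fun g => (mem_center_iff.1 h1 g).symm
  generalize QuotientGroup.mk' (center ↥H) = π at *
  have hB : ∀ x, π x ∈ (BH H).map π ↔ x ∈ BH H := fun x => map_mem_iff fun k hk => (hker k hk).1
  have hN' : ∀ x, π x ∈ N.map π ↔ x ∈ N := fun x => map_mem_iff fun k hk => (hker k hk).2
  have hT1 : ∀ {x : ↥H}, x ∈ BH H → x ∈ N → Mon x.1 1 := by
    intro x hx hxN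
    obtain ⟨τ, hτ⟩ := hN x hxN
    have := mon_up hτ (mem_BH'.1 hx)
    rwa [this] at hτ
  have hker' : ∀ x : ↥H, π x = 1 → Mon x.1 1 := fun x hx => hT1 (hker x hx).1 (hker x hx).2
  obtain ⟨n₀, hn₀, hopp⟩ := h'.opp
  refine noOut_root h' hsimple hr hp hpr hn₀ hopp (fun e he heB _ => h1 e he heB) ?_ hgp
  obtain ⟨w, hw, rfl⟩ := hn₀
  obtain ⟨τ, hτ⟩ := hN w hw
  have hanti : ∀ {a b : VI n}, a < b → a ≠ Fin.rev b → τ b < τ a :=
    fun h1 h2 => antiT hg hker' hτ hopp h1 h2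
  have hanti' : ∀ {a b : VI n}, a < b → ¬ (a = c0 n ∧ b = c1 n) → τ b < τ a :=
    fun h1 h2 => anti' hanti h1 h2
  rintro _ ⟨s, hs, rfl⟩ e he
  obtain ⟨i, ⟨hi, hsi⟩ | ⟨hi, hsi⟩⟩ := hS s hs
  · obtain ⟨K, hK⟩ := card_long hg hker' hB hi hsi
      (fun {y} hy => (h'.mem_Par ⟨s, hs, rfl⟩).1 hy) hτ hanti hanti'
    have hdvd : Nat.card K ∣ r ^ f := by
      rw [← hF]
      exact AddSubgroup.card_addSubgroup_dvd_card K.toAddSubgroup
    obtain ⟨f0, hf0, hK0⟩ := (Nat.dvd_prime_pow hr).1 hdvd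
    exact triv_of_pow (r := r) (a := f0) hp hr hpr (hK.trans hK0)
      (fun j h0 hj => hpF j h0 (hj.trans hf0)) he
  · exact triv_of_pow (r := r) (a := f) hp hr hpr ((card_short hg hσ hker' hB hi hsi
      (fun {y} hy => (h'.mem_Par ⟨s, hs, rfl⟩).1 hy) hτ hanti hanti').trans hF) hpF he

end

end Vale.Agent.P240.R2.H432.NT
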